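import Vale.Agent.P297A41.Grp

/-!
# The Albanese morphism in the two languages
-/

open CategoryTheory AlgebraicGeometry MonoidalCategory CartesianMonoidalCategory
open scoped MonObj

namespace Vale.Agent.P297A

open Vale.Agent.P297M (ClosedPt)

/-- The closed point under a complex point. -/
noncomputable def cp (S : Sch) [LocallyOfFiniteType S.hom] : Pt S ≃ ClosedPt S.left :=
  Equiv.ofBijective pt
    ⟨fun _ _ h => (P009S.sec ℂ S).1 (congrArg Subtype.val h),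
      fun y => ((P009S.sec ℂ S).2.1.ge y.2).imp fun _ h => Subtype.ext h⟩

instance (G : AbVar) : IsProper G.X.hom := G.proper

instance (G : AbVar) : IsIntegral G.X.left :=
  have := G.integral
  GeometricallyIntegral.isIntegral_of_subsingleton G.X.hom

variable {σ τ : Type} [Fintype σ] [Fintype τ] {G H : AbVar} {A : P009.AV.AbVar ℂ σ}
  {B : P009.AV.AbVar ℂ τ} {S : Sch}

theorem img_inj {a b : S ⟶ G.X} [LocallyOfFiniteType S.hom] [IsReduced S.left]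
    (h : ∀ x, img a x = img b x) : a = b := ext_pt h

theorem img_comp (a : S ⟶ G.X) (ψ : G.X ⟶ H.X) (x : Pt S) :
    img (a ≫ ψ) x = img ψ (x ≫ a) := congrArg Additive.ofMul (Category.assoc _ _ _).symm

/-- The homomorphism of the groups of points. -/
noncomputable def homPt (ψ : G.X ⟶ H.X) (h : IsHom ψ) : G.Pts →+ H.Pts :=
  AddMonoidHom.mk' (fun x => img ψ (Additive.toMul x)) fun x y =>
    have : IsMonHom ψ := h
    MonObj.mul_comp (Additive.toMul x : Pt G.X) (Additive.toMul y) ψ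

theorem isHom_of {ψ : G.X ⟶ H.X} (φ : G.Pts →+ H.Pts)
    (h : ∀ x : Pt G.X, img ψ x = φ (Additive.ofMul x)) : IsHom ψ := by
  have := G.integral
  have h2 : IsProper (G.X ⊗ G.X).hom := by dsimp; infer_instance
  have h4 : IsIntegral (G.X ⊗ G.X).left := integral_tensor G.X G.X
  refine ⟨?_, ext_pt fun P => ?_⟩
  · rw [MonObj.one_eq_one, MonObj.one_eq_one]
    exact (h 1).trans φ.map_zero
  · have h5 : P ≫ μ[G.X] = (P ≫ fst _ _) * (P ≫ snd _ _) := by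
      rw [MonObj.mul_eq_mul, MonObj.comp_mul]
    have h6 : P ≫ (ψ ⊗ₘ ψ) ≫ μ[H.X] = ((P ≫ fst _ _) ≫ ψ) * ((P ≫ snd _ _) ≫ ψ) := by
      rw [MonObj.mul_eq_mul, MonObj.comp_mul, MonObj.comp_mul, tensorHom_fst, tensorHom_snd,
        Category.assoc, Category.assoc]
    rw [h6, ← Category.assoc, h5]
    exact (h _).trans ((φ.map_add (Additive.ofMul _) (Additive.ofMul _)).trans
      (congrArg₂ (· + ·) (h _).symm (h _).symm))

theorem Model.lift (hL : LIFT) (M : Model G A) [LocallyOfFiniteType S.hom] [IsReduced S.left]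
    (a : Pt S → A.G) (h : Loc S fun x => A.emb (a x)) :
    ∃ g : S ⟶ G.X, ∀ x, M.ε (img g x) = a x := by
  have h1 : (fun x => A.emb (a x)) = fun x => A.emb (M.ε (M.ε.symm (a x))) :=
    funext fun x => by rw [AddEquiv.apply_symm_apply]
  rw [h1] at h
  obtain ⟨g, hg⟩ := hL S G.X _ _ M.D _ M.emb (fun x => Additive.toMul (M.ε.symm (a x))) h
  exact ⟨g, fun x => (congrArg (fun z => M.ε (Additive.ofMul z)) (hg x)).trans
    (M.ε.apply_symm_apply _)⟩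

theorem Model.mor_iff (hL : LIFT) (hR : PRJ) (M : Model G A) [LocallyOfFiniteType S.hom]
    [IsReduced S.left] (a : ClosedPt S.left → A.G) :
    P297M.Mor S.hom A a ↔ ∃ g : S ⟶ G.X, ∀ x, M.ε (img g x) = a (cp S x) := by
  constructor
  · rintro ⟨g, h1, h2⟩
    exact M.lift hL _ ((hR S σ _).2 ⟨g, h1, fun x => h2 (cp S x)⟩)
  · rintro ⟨g, hg⟩
    obtain ⟨k, h1, h2⟩ := (hR S σ _).1 ((loc_emb M.emb).comp g)
    refine ⟨k, h1, fun y => ?_⟩
    obtain ⟨x, rfl⟩ := (cp S).surjective y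
    rw [← hg]
    exact h2 x

theorem Model.exists_map (M : Model G A) [LocallyOfFiniteType S.hom] (g : S ⟶ G.X) :
    ∃ a : ClosedPt S.left → A.G, ∀ x, M.ε (img g x) = a (cp S x) :=
  ⟨fun y => M.ε (img g ((cp S).symm y)), fun x =>
    congrArg (fun z => M.ε (img g z)) ((cp S).symm_apply_apply x).symm⟩

theorem Model.reg_iff (hL : LIFT) (hP : POLY) (M : Model G A) (N : Model H B) (φ : A.G → B.G) :
    P297M.IsReg A B φ ↔ ∃ ψ : G.X ⟶ H.X, ∀ x, N.ε (img ψ x) = φ (M.ε (Additive.ofMul x)) := by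
  constructor
  · intro h
    refine N.lift hL _ (hP _ σ τ _ _ (loc_emb M.emb) fun P => ?_)
    obtain ⟨F, d, h1, h2, h3⟩ := h (M.ε (Additive.ofMul P))
    exact ⟨F, d, h1, h2, fun P' => h3 _⟩
  · rintro ⟨ψ, hψ⟩ P
    obtain ⟨P, rfl⟩ := M.ε.surjective P
    obtain ⟨F, d, h1, h2, h3⟩ := P009S.mor57 ℂ G.X H.X _ _ _ _ M.D N.D _ _ M.emb N.emb ψ
      (Additive.toMul P)
    refine ⟨F, d, h1, h2, fun P' => ?_⟩
    obtain ⟨P', rfl⟩ := M.ε.surjective P'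
    have h4 := h3 (Additive.toMul P')
    have h5 : N.ε (img ψ (Additive.toMul P')) = φ (M.ε P') := hψ (Additive.toMul P')
    rw [← h5]
    exact h4

section

variable (hL : LIFT) (hR : PRJ) (hP : POLY) [LocallyOfFiniteType S.hom] [IsReduced S.left]
  (M : Model G A) (N : Model H B) {g : S ⟶ G.X} {k : S ⟶ H.X} {a : ClosedPt S.left → A.G}
  {b : ClosedPt S.left → B.G} (hg : ∀ x, M.ε (img g x) = a (cp S x))
  (hk : ∀ x, N.ε (img k x) = b (cp S x))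

include hL hP hg hk in
theorem fac_iff : (∃! φ : A.G →+ B.G, P297M.IsReg A B φ ∧ ∀ y, b y = φ (a y)) ↔
    ∃! ψ : G.X ⟶ H.X, IsHom ψ ∧ g ≫ ψ = k := by
  let R : (A.G →+ B.G) → (G.X ⟶ H.X) → Prop := fun φ ψ =>
    ∀ x, N.ε (img ψ x) = φ (M.ε (Additive.ofMul x))
  have h1 : ∀ φ ψ, R φ ψ → ((∀ y, b y = φ (a y)) ↔ g ≫ ψ = k) := fun φ ψ h =>
    ⟨fun h2 => img_inj fun x => N.ε.injective (by
      rw [img_comp, h, hk, h2, ← hg]
      rfl), fun h2 y => by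
      obtain ⟨x, rfl⟩ := (cp S).surjective y
      rw [← hk, ← hg, ← h2, img_comp, h]
      rfl⟩
  have h2 : ∀ φ : A.G →+ B.G, P297M.IsReg A B φ → ∃ ψ, R φ ψ ∧ IsHom ψ := fun φ h => by
    obtain ⟨ψ, hψ⟩ := (M.reg_iff hL hP N φ).1 h
    exact ⟨ψ, hψ, isHom_of (N.ε.symm.toAddMonoidHom.comp (φ.comp M.ε.toAddMonoidHom))
      fun x => N.ε.eq_symm_apply.2 (hψ x)⟩
  have h3 : ∀ ψ, IsHom ψ → ∃ φ, R φ ψ ∧ P297M.IsReg A B φ := fun ψ h => by
    have h4 : R (N.ε.toAddMonoidHom.comp ((homPt ψ h).comp M.ε.symm.toAddMonoidHom)) ψ :=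
      fun x => congrArg (fun z => N.ε (homPt ψ h z)) (M.ε.symm_apply_apply _).symm
    exact ⟨_, h4, (M.reg_iff hL hP N _).2 ⟨ψ, h4⟩⟩
  constructor
  · rintro ⟨φ, ⟨h4, h5⟩, h6⟩
    obtain ⟨ψ, h7, h8⟩ := h2 φ h4
    refine ⟨ψ, ⟨h8, (h1 φ ψ h7).1 h5⟩, fun ψ' h9 => ?_⟩
    obtain ⟨φ', h10, h11⟩ := h3 ψ' h9.1
    obtain rfl := h6 φ' ⟨h11, (h1 φ' ψ' h10).2 h9.2⟩
    exact img_inj fun x => N.ε.injective ((h10 x).trans (h7 x).symm)
  · rintro ⟨ψ, ⟨h4, h5⟩, h6⟩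
    obtain ⟨φ, h7, h8⟩ := h3 ψ h4
    refine ⟨φ, ⟨h8, (h1 φ ψ h7).2 h5⟩, fun φ' h9 => ?_⟩
    obtain ⟨ψ', h10, h11⟩ := h2 φ' h9.1
    obtain rfl := h6 ψ' ⟨h11, (h1 φ' ψ' h10).1 h9.2⟩
    refine AddMonoidHom.ext fun z => ?_
    obtain ⟨z, rfl⟩ := M.ε.surjective z
    exact (h10 (Additive.toMul z)).symm.trans (h7 (Additive.toMul z))

include hL hR hP hg in
theorem isAlb_iff (hS : SCH) (x₀ : Pt S) :
    P297M.IsAlb S.hom (cp S x₀) A a ↔ IsAlb x₀ G g := by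
  have h0 : a (cp S x₀) = 0 ↔ img g x₀ = 0 := by rw [← hg, EmbeddingLike.map_eq_zero_iff]
  constructor
  · rintro ⟨-, h1, h2⟩
    refine ⟨h0.1 h1, fun H k hk => ?_⟩
    obtain ⟨n, B, ⟨N⟩⟩ := abv H
    obtain ⟨b, h3⟩ := N.exists_map k
    refine (fac_iff hL hP M N hg h3).1 (h2 _ B _ ((N.mor_iff hL hR _).2 ⟨k, h3⟩) ?_)
    rw [← h3, hk, map_zero]
  · rintro ⟨h1, h2⟩
    refine ⟨(M.mor_iff hL hR a).2 ⟨g, hg⟩, h0.2 h1, fun τ _ B b h3 h4 => ?_⟩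
    obtain ⟨H, ⟨N⟩⟩ := hS τ B
    obtain ⟨k, hk⟩ := (N.mor_iff hL hR b).1 h3
    refine (fac_iff hL hP M N hg hk).2 (h2 H k (N.ε.injective ?_))
    rw [hk, h4, map_zero]

omit [IsReduced S.left] in
include hg in
theorem albIso_of (h : P297M.AlbIso (P297M.cl (S := S.left)) a) : AlbIso cls (img g) := by
  obtain ⟨deg, alb, h1, h2, h3⟩ := h
  exact ⟨deg, M.ε.symm.toAddMonoidHom.comp alb, fun x => h1 _,
    fun x => M.ε.symm_apply_eq.2 ((h2 _).trans (hg x).symm), M.ε.symm.bijective.comp h3⟩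

end

theorem transfer (hL : LIFT) (hR : PRJ) (hP : POLY) (hS : SCH) [LocallyOfFiniteType S.hom]
    [IsReduced S.left] (x₀ : Pt S)
    (h1 : ∃ (σ : Type) (_ : Fintype σ) (A : P009.AV.AbVar ℂ σ) (a : ClosedPt S.left → A.G),
      P297M.IsAlb S.hom (cp S x₀) A a)
    (h2 : ∀ (σ : Type) [Fintype σ] (A : P009.AV.AbVar ℂ σ) (a : ClosedPt S.left → A.G),
      P297M.IsAlb S.hom (cp S x₀) A a → P297M.AlbIso (P297M.cl (S := S.left)) a) :
    (∃ (G : AbVar) (g : S ⟶ G.X), IsAlb x₀ G g) ∧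
      ∀ (G : AbVar) (g : S ⟶ G.X), IsAlb x₀ G g → AlbIso cls (img g) := by
  constructor
  · obtain ⟨σ, _, A, a, h⟩ := h1
    obtain ⟨G, ⟨M⟩⟩ := hS σ A
    obtain ⟨g, hg⟩ := (M.mor_iff hL hR a).1 h.1
    exact ⟨G, g, (isAlb_iff hL hR hP M hg hS x₀).1 h⟩
  · intro G g h
    obtain ⟨n, A, ⟨M⟩⟩ := abv G
    obtain ⟨a, h3⟩ := M.exists_map g
    exact albIso_of M h3 (h2 _ A _ ((isAlb_iff hL hR hP M h3 hS x₀).2 h))

end Vale.Agent.P297A
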