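import Vale.Agent.P297A41.Dict
import Vale.Agent.P297L41.Irr

/-!
# The final statement
-/

open CategoryTheory AlgebraicGeometry

namespace Vale.Agent.P297A

open Vale.Agent.P297M (IsProjective pg ClosedPt Curve FiniteDiv IrrZero cl CH0)

theorem final (hL : LIFT) (hR : PRJ) (hP : POLY) (hS : SCH) (S : Sch)
    [SmoothOfRelativeDimension 2 S.hom] [ConnectedSpace S.left] (hf : IsProjective S.hom)
    (hg : pg S.hom = 0) :
    Nonempty (Pt S) ∧ Function.Bijective (pt (X := S)) ∧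
    (∀ C : Curve S.left, ∃ _ : IsLocallyNoetherian C.Nor, FiniteDiv C.Nor) ∧
    (∀ x₀ : Pt S, (∃ (A : AbVar) (a : S ⟶ A.X), IsAlb x₀ A a) ∧
      ∀ (A : AbVar) (a : S ⟶ A.X), IsAlb x₀ A a → AlbIso cls (img a)) ∧
    (IrrZero S.left → (∀ x y : ClosedPt S.left, cl x = cl y) ∧
      ∃ deg : CH0 S.left ≃+ ℤ, ∀ x : ClosedPt S.left, deg (cl x) = 1) := by
  have h1 : Smooth S.hom := SmoothOfRelativeDimension.smooth 2 S.hom
  have h2 : IsIntegral S.left := P297G93.isIntegral_of_smooth S.hom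
  obtain ⟨⟨y⟩, h3⟩ := P297L.asm0 S.left S.hom hf
  refine ⟨⟨(cp S).symm y⟩, (cp S).bijective, (P297L.asm S.left S.hom hf hg y).1, fun x₀ => ?_,
    h3 hg⟩
  obtain ⟨-, h4, h5⟩ := P297L.asm S.left S.hom hf hg (cp S x₀)
  exact transfer hL hR hP hS x₀ h4 h5

end Vale.Agent.P297A
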