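import Vale.Agent.P297A41.Rows
import Vale.Agent.P009S22.All

/-!
# Classical abelian varieties and group schemes
-/

open CategoryTheory AlgebraicGeometry MonoidalCategory CartesianMonoidalCategory
open scoped MonObj

namespace Vale.Agent.P297A

open Vale.Agent.P009S Vale.Agent.P009L Vale.Agent.P009.AV

theorem abv : ABV := by
  intro A
  have := A.proper
  have := A.integral
  let G := A.X
  have : IsIntegral G.left := GeometricallyIntegral.isIntegral_of_subsingleton G.hom
  obtain ⟨α, N, ⟨D⟩⟩ := pow ℂ G (amp (loc66 eqn prin dom sec) (fib sec) sec ℂ G)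
  obtain ⟨e, he⟩ := D.exists_emb
  obtain ⟨hinj, htop⟩ := emb sec ℂ G α _ D e he
  have hcl := clo73 sec ℂ G α _ D e he
  obtain ⟨F, hF⟩ := prd ℂ G G α α _ _ D D e e he he
  let X : PV ℂ (Fin (N + 1)) := ⟨Pts G, e, hinj, hcl⟩
  have : Nonempty (Pts G) := ⟨0⟩
  have h : IsAbelianVariety (A := Pts G) e := by
    refine ⟨hinj, isAlg_iff.2 hcl, fun U => (isOpen_pts U).trans (htop U), conn_pts sec G,
      isMorphism_of (X := X.prod X) (Y := X) (f := fun p : Pts G × Pts G => p.1 + p.2)
        fun P => ?_,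
      isMorphism_of (X := X) (Y := X) (f := fun p : Pts G => -p) fun P => ?_⟩
    · have key : ∀ x y : P009S.Pt G, seg (e (lift x y ≫ fst G G)) (e (lift x y ≫ snd G G)) =
          seg (e x) (e y) := fun x y => by rw [lift_fst, lift_snd]
      obtain ⟨Q, d, h1, h2, h3⟩ := mor57 ℂ (G ⊗ G) G _ _ _ _ F D _ e hF he μ[G]
        (lift (Additive.toMul P.1) (Additive.toMul P.2))
      refine ⟨Q, d, h1, ?_, fun P' => ?_⟩
      · rw [key] at h2
        exact h2
      · have h4 := h3 (lift (Additive.toMul P'.1) (Additive.toMul P'.2))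
        beta_reduce at h4
        rw [key] at h4
        exact h4
    · exact mor57 ℂ G G _ _ _ _ D D e e he he (GrpObj.inv) P
  exact ⟨N, h.av, ⟨⟨α, D, AddEquiv.refl _, he⟩⟩⟩

theorem integral_tensor (X G : Sch) [LocallyOfFiniteType X.hom] [IsIntegral X.left]
    [GeometricallyIntegral G.hom] : IsIntegral (X ⊗ G).left := by
  have := LocallyOfFiniteType.isLocallyNoetherian X.hom
  change IsIntegral (Limits.pullback X.hom G.hom)
  infer_instance

theorem sch (hL : LIFT) (hP : POLY) (hQ : POLY2) (hV : VAR) : SCH := by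
  intro σ _ A
  obtain ⟨G, _, _, D, e, he, hinj, hr⟩ := hV σ _ A.irr
  have hg : GeometricallyIntegral G.hom := abs_geo dom G.hom
  let ε : Pt G ≃ A.G := (Equiv.ofInjective e hinj).trans
    ((Equiv.setCongr hr).trans (Equiv.ofInjective A.emb A.emb_inj).symm)
  have hε : ∀ x, A.emb (ε x) = e x := fun x => Equiv.apply_ofInjective_symm A.emb_inj _
  have hε' : ∀ a, e (ε.symm a) = A.emb a := fun a => by rw [← hε, ε.apply_symm_apply]
  have h2 : IsProper (G ⊗ G).hom := by dsimp; infer_instance
  have h3 : IsProper ((G ⊗ G) ⊗ G).hom := by dsimp; infer_instance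
  have h4 : IsIntegral (G ⊗ G).left := integral_tensor G G
  have h5 : IsIntegral ((G ⊗ G) ⊗ G).left := integral_tensor (G ⊗ G) G
  obtain ⟨m, hm⟩ := hL (G ⊗ G) G σ σ D e he
    (fun z => ε.symm (ε (z ≫ fst G G) + ε (z ≫ snd G G)))
    (hQ _ σ _ _ _ ((loc_emb he).comp (fst G G)) ((loc_emb he).comp (snd G G)) fun P => by
      obtain ⟨F, h6, h7, h8⟩ := A.add_reg (ε (P ≫ fst G G)) (ε (P ≫ snd G G))
      refine ⟨F, h6, by rwa [hε, hε] at h7, fun P' => ?_⟩
      have h9 := h8 (ε (P' ≫ fst G G)) (ε (P' ≫ snd G G))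
      rwa [hε, hε, ← hε'] at h9)
  obtain ⟨n, hn⟩ := hL G G σ σ D e he (fun z => ε.symm (-ε z))
    (hP _ σ σ _ _ (loc_emb he) fun P => by
      obtain ⟨F, d, h6, h7, h8⟩ := A.neg_reg (ε P)
      refine ⟨F, d, h6, by rwa [hε] at h7, fun P' => ?_⟩
      have h9 := h8 (ε P')
      rwa [hε, ← hε'] at h9)
  have hm' : ∀ z : Pt (G ⊗ G), ε (z ≫ m) = ε (z ≫ fst G G) + ε (z ≫ snd G G) := fun z => by
    rw [hm, ε.apply_symm_apply]
  have hn' : ∀ z : Pt G, ε (z ≫ n) = -ε z := fun z => by rw [hn, ε.apply_symm_apply]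
  have ho : ∀ t : 𝟙_ Sch ⟶ 𝟙_ Sch, ε (t ≫ ε.symm 0) = 0 := fun t => by
    rw [toUnit_unique t (𝟙 _), Category.id_comp, ε.apply_symm_apply]
  have hl : ∀ {T : Sch} (i : G ≅ T) {f g : T ⟶ G},
      (∀ P : Pt T, ε (P ≫ f) = ε (P ≫ g)) → f = g := fun i f g h => by
    rw [← cancel_epi i.hom]
    exact ext_pt fun P => ε.injective (by
      rw [← Category.assoc, ← Category.assoc]
      exact h _)
  let M : MonObj G :=
    { one := ε.symm 0
      mul := m
      one_mul := hl (λ_ G).symm fun P => by
        rw [← Category.assoc, hm', Category.assoc, Category.assoc, whiskerRight_fst,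
          whiskerRight_snd, ← Category.assoc, ho, zero_add, leftUnitor_hom]
      mul_one := hl (ρ_ G).symm fun P => by
        rw [← Category.assoc, hm', Category.assoc, Category.assoc, whiskerLeft_fst,
          whiskerLeft_snd, ← Category.assoc P (snd _ _), ho, add_zero, rightUnitor_hom]
      mul_assoc := ext_pt fun P => ε.injective (by
        rw [← Category.assoc, hm', Category.assoc, Category.assoc, whiskerRight_fst,
          whiskerRight_snd, ← Category.assoc, hm', ← Category.assoc, ← Category.assoc, hm']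
        simp only [Category.assoc, whiskerLeft_fst, whiskerLeft_snd, associator_hom_fst]
        rw [← Category.assoc _ _ m, ← Category.assoc _ _ m, hm']
        simp only [Category.assoc, associator_hom_snd_fst, associator_hom_snd_snd, add_assoc]) }
  let H : GrpObj G :=
    { toMonObj := M
      inv := n
      left_inv := ext_pt fun P => ε.injective (by
        change ε (P ≫ lift n (𝟙 G) ≫ m) = ε (P ≫ toUnit G ≫ ε.symm 0)
        rw [← Category.assoc, hm', Category.assoc, Category.assoc, lift_fst, lift_snd, hn',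
          Category.comp_id, neg_add_cancel, ← Category.assoc, ho])
      right_inv := ext_pt fun P => ε.injective (by
        change ε (P ≫ lift (𝟙 G) n ≫ m) = ε (P ≫ toUnit G ≫ ε.symm 0)
        rw [← Category.assoc, hm', Category.assoc, Category.assoc, lift_fst, lift_snd, hn',
          Category.comp_id, add_neg_cancel, ← Category.assoc, ho]) }
  refine ⟨⟨G, ‹_›, hg⟩, ⟨⟨σ, D, ⟨Additive.toMul.trans ε, fun x y => ?_⟩, ?_⟩⟩⟩
  · change ε (lift (Additive.toMul x) (Additive.toMul y) ≫ m) = _
    rw [hm', lift_fst, lift_snd]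
    rfl
  · intro x a h
    change ∃ c : ℂ, c ≠ 0 ∧ ∀ j, (A.emb (ε x)).rep j = _
    rw [hε]
    exact he x a h

end Vale.Agent.P297A
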