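import Vale.Agent.P297M75.Defs
import Mathlib.AlgebraicGeometry.Group.Abelian
import Mathlib.AlgebraicGeometry.AlgClosed.Basic

/-!
# Abelian varieties as group schemes, the Albanese morphism
-/

open CategoryTheory AlgebraicGeometry MonoidalCategory
open scoped MonObj

namespace Vale.Agent.P297A

/-- Schemes over `ℂ`. -/
abbrev Sch : Type 1 := Over (Spec (CommRingCat.of ℂ))

/-- The complex points of `X`: morphisms `Spec ℂ ⟶ X` over `ℂ`. -/
abbrev Pt (X : Sch) : Type := 𝟙_ Sch ⟶ X

/-- The image of the point of `Spec ℂ`. -/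
noncomputable def im {X : Scheme.{0}} (p : Spec (CommRingCat.of ℂ) ⟶ X) : X :=
  p (IsLocalRing.closedPoint ℂ)

theorem closed_aux {X : Scheme.{0}} (p : Spec (CommRingCat.of ℂ) ⟶ X) [IsClosedImmersion p] :
    im p ∈ closedPoints X := by
  have h := p.isClosedEmbedding.isClosed_range
  rwa [Set.range_eq_singleton (y := im p) fun _ => congrArg p (Subsingleton.elim _ _)] at h

theorem im_closed {X : Sch} (x : Pt X) : im x.left ∈ closedPoints X.left :=
  @closed_aux _ x.left
    (isClosedImmersion_of_comp_eq_id (Y := Spec (CommRingCat.of ℂ)) X.hom x.left (Over.w x))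

/-- The closed point under a complex point. -/
noncomputable def pt {X : Sch} (x : Pt X) : P297M.ClosedPt X.left := ⟨im x.left, im_closed x⟩

/-- The class of a complex point in `CH_0`. -/
noncomputable def cls {X : Sch} (x : Pt X) : P297M.CH0 X.left := P297M.cl (pt x)

/-- An abelian variety: a proper geometrically integral group scheme over `ℂ`. -/
structure AbVar where
  /-- the scheme -/
  X : Sch
  [grp : GrpObj X]
  proper : IsProper X.hom
  integral : GeometricallyIntegral X.hom

attribute [instance] AbVar.grp

/-- The group `A(ℂ)`, written additively. -/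
def AbVar.Pts (A : AbVar) : Type := Additive (Pt A.X)

noncomputable instance (A : AbVar) : AddGroup A.Pts := @Additive.addGroup (Pt A.X) Hom.group

/-- The morphism `ψ` is a homomorphism of abelian varieties. -/
def IsHom {A B : AbVar} (ψ : A.X ⟶ B.X) : Prop := IsMonHom ψ

/-- The image of a complex point in `A(ℂ)`. -/
noncomputable def img {S : Sch} {A : AbVar} (a : S ⟶ A.X) (x : Pt S) : A.Pts :=
  Additive.ofMul (x ≫ a)

/-- `a : S ⟶ A` is the Albanese morphism for the base point `x₀`: every morphism from `S` to an
abelian variety which maps `x₀` to the origin factors through `a` by a unique homomorphism. -/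
def IsAlb {S : Sch} (x₀ : Pt S) (A : AbVar) (a : S ⟶ A.X) : Prop :=
  img a x₀ = 0 ∧ ∀ (B : AbVar) (b : S ⟶ B.X), img b x₀ = 0 →
    ∃! ψ : A.X ⟶ B.X, IsHom ψ ∧ a ≫ ψ = b

/-- For a group `Q` with classes `c x` of the points: the degree and the homomorphism
`∑ n_i c(x_i) ↦ ∑ n_i a(x_i)` are defined on `Q`, and the latter is a bijection from the kernel of
the degree onto `G`. -/
def AlbIso {P Q G : Type} [AddGroup Q] [AddGroup G] (c : P → Q) (a : P → G) : Prop :=
  ∃ (deg : Q →+ ℤ) (alb : Q →+ G), (∀ x, deg (c x) = 1) ∧ (∀ x, alb (c x) = a x) ∧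
    Function.Bijective fun z : deg.ker => alb z.1

end Vale.Agent.P297A
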