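import Vale.Agent.P009S.Rows
import Vale.Agent.P297A41.St

/-!
# Classical abelian varieties and group schemes: the rows
-/

open CategoryTheory AlgebraicGeometry MonoidalCategory

namespace Vale.Agent.P297A

open Vale.Agent.P009S (VA ev)
open Vale.Agent.P009.AV (PP Bihom IrrClosed)
open Vale.Agent.P297M (Pj str IsPoint)

/-- The map `q` to the projective space is locally given by sections. -/
def Loc (X : Sch) {σ : Type} (q : Pt X → PP ℂ σ) : Prop :=
  ∀ P : Pt X, ∃ (W : X.left.Opens) (_ : P009S.pt P ∈ W) (u : σ → Γ(X.left, W)),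
    ∀ (P' : Pt X) (h : P009S.pt P' ∈ W), ∃ c : ℂ, c ≠ 0 ∧ ∀ j, (q P').rep j = c * ev P' W h (u j)

theorem loc_emb {X : Sch} {α σ : Type} {D : VA X α σ} {e : Pt X → PP ℂ σ} (h : D.IsEmb e) :
    Loc X e := fun P => by
  obtain ⟨a, ha⟩ := D.cov (P009S.pt P)
  exact ⟨D.U a, ha, D.s a, fun P' h' => h P' a h'⟩

theorem Loc.comp {X Y : Sch} {σ : Type} {q : Pt Y → PP ℂ σ} (h : Loc Y q) (f : X ⟶ Y) :
    Loc X fun P => q (P ≫ f) := fun P => by
  obtain ⟨W, hW, u, hu⟩ := h (P ≫ f)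
  refine ⟨f.left ⁻¹ᵁ W, hW, fun j => f.left.app W (u j), fun P' h' => ?_⟩
  obtain ⟨c, hc, h1⟩ := hu (P' ≫ f) h'
  exact ⟨c, hc, fun j => (h1 j).trans (congrArg (c * ·) (P009S.ev_app P' f W h' (u j)).symm)⟩

/-- Morphisms which agree on the complex points are equal. -/
theorem ext_pt {X Y : Sch} [LocallyOfFiniteType X.hom] [IsReduced X.left]
    [LocallyOfFiniteType Y.hom] [IsSeparated Y.hom] {f g : X ⟶ Y}
    (h : ∀ P : Pt X, P ≫ f = P ≫ g) : f = g := by
  have : LocallyOfFiniteType (f.left ≫ Y.hom) := by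
    rw [Over.w f]
    infer_instance
  refine Over.OverMorphism.ext (ext_of_apply_eq Y.hom Set.univ isOpen_univ.isLocallyClosed
    dense_univ (fun x _ hx => ?_) ((Over.w f).trans (Over.w g).symm))
  let P : Pt X := Over.homMk (pointOfClosedPoint X.hom x hx) (pointOfClosedPoint_comp _ _ _)
  have h1 : P009S.pt P = x := pointOfClosedPoint_apply _ _ _ _
  rw [← h1, ← P009S.pt_comp, ← P009S.pt_comp, h]

/-- A map which is locally given by sections comes from a morphism of schemes. -/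
def LIFT : Prop :=
  ∀ (X Y : Sch) [LocallyOfFiniteType X.hom] [IsReduced X.left] [LocallyOfFiniteType Y.hom]
    [IsSeparated Y.hom] (β τ : Type) (E : VA Y β τ) (e : Pt Y → PP ℂ τ), E.IsEmb e →
    ∀ φ : Pt X → Pt Y, (Loc X fun P => e (φ P)) → ∃ f : X ⟶ Y, ∀ P, P ≫ f = φ P

/-- Homogeneous polynomials. -/
def POLY : Prop :=
  ∀ (X : Sch) (σ τ : Type) [Fintype σ] (q : Pt X → PP ℂ σ) (q' : Pt X → PP ℂ τ), Loc X q →
    (∀ P, ∃ (F : τ → MvPolynomial σ ℂ) (d : ℕ), (∀ i, (F i).IsHomogeneous d) ∧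
      (∃ i, MvPolynomial.eval (q P).rep (F i) ≠ 0) ∧
      ∀ P', (∃ i, MvPolynomial.eval (q P').rep (F i) ≠ 0) →
        ∃ c, ∀ i, MvPolynomial.eval (q P').rep (F i) = c * (q' P').rep i) → Loc X q'

/-- Bihomogeneous polynomials. -/
def POLY2 : Prop :=
  ∀ (X : Sch) (σ : Type) [Fintype σ] (q₁ q₂ q' : Pt X → PP ℂ σ), Loc X q₁ → Loc X q₂ →
    (∀ P, ∃ F : σ → MvPolynomial (σ ⊕ σ) ℂ, Bihom F ∧
      (∃ i, MvPolynomial.eval (Sum.elim (q₁ P).rep (q₂ P).rep) (F i) ≠ 0) ∧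
      ∀ P', (∃ i, MvPolynomial.eval (Sum.elim (q₁ P').rep (q₂ P').rep) (F i) ≠ 0) →
        ∃ c, ∀ i, MvPolynomial.eval (Sum.elim (q₁ P').rep (q₂ P').rep) (F i) =
          c * (q' P').rep i) → Loc X q'

/-- Closed subschemes of the projective space have very ample data. -/
def VAP : Prop :=
  ∀ (G : Sch) (ι : Type) [Fintype ι] (i : G.left ⟶ Pj ι), IsClosedImmersion i →
    i ≫ str ι = G.hom → ∃ (D : VA G ι ι) (e : Pt G → PP ℂ ι), D.IsEmb e ∧
      ∀ x, IsPoint (i (P009S.pt x)) (e x)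

/-- The complex points of the projective space. -/
def PTS : Prop :=
  ∀ (ι : Type) [Fintype ι],
    (∀ P : PP ℂ ι, ∃ x : Pt (Over.mk (str ι)), IsPoint (ι := ι) (P009S.pt x) P) ∧
    (∀ (y : Pj ι) (P P' : PP ℂ ι), IsPoint y P → IsPoint y P' → P = P') ∧
    ∀ (y y' : Pj ι) (P : PP ℂ ι), IsPoint y P → IsPoint y' P → y = y'

/-- Morphisms to the projective space. -/
def PRJ : Prop :=
  ∀ (X : Sch) [LocallyOfFiniteType X.hom] [IsReduced X.left] (ι : Type) [Fintype ι]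
    (q : Pt X → PP ℂ ι), Loc X q ↔
      ∃ g : X.left ⟶ Pj ι, g ≫ str ι = X.hom ∧ ∀ x, IsPoint (g (P009S.pt x)) (q x)

/-- The scheme of a projective variety. -/
def VAR : Prop :=
  ∀ (ι : Type) [Fintype ι] (Y : Set (PP ℂ ι)), IrrClosed Y →
    ∃ (G : Sch) (_ : IsProper G.hom) (_ : IsIntegral G.left) (D : VA G ι ι) (e : Pt G → PP ℂ ι),
      D.IsEmb e ∧ Function.Injective e ∧ Set.range e = Y

/-- The group scheme `G` is the classical abelian variety `A`. -/
structure Model (G : AbVar) {ι : Type} [Fintype ι] (A : P009.AV.AbVar ℂ ι) where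
  /-- the charts -/
  α : Type
  /-- the very ample data -/
  D : VA G.X α ι
  /-- the points -/
  ε : G.Pts ≃+ A.G
  emb : D.IsEmb fun x => A.emb (ε (Additive.ofMul x))

/-- Every classical abelian variety is a group scheme. -/
def SCH : Prop :=
  ∀ (ι : Type) [Fintype ι] (A : P009.AV.AbVar ℂ ι), ∃ G : AbVar, Nonempty (Model G A)

/-- Every abelian variety is a classical one. -/
def ABV : Prop :=
  ∀ G : AbVar, ∃ (N : ℕ) (A : P009.AV.AbVar ℂ (Fin (N + 1))), Nonempty (Model G A)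

end Vale.Agent.P297A
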